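import Vale.Agent.P258.H331.Defs

/-!
Links `K ∪ E ∪ C_1 ∪ ... ∪ C_m` whose sublink `K ∪ E` is a given pattern, and the fundamental
groups of the surgeries on the satellite knots whose patterns are obtained from `K ∪ E` by twisting
along the `C_i` (Fox congruence).
-/

namespace Vale.Agent.P258

/-- Relators on the arcs of `D` for the group of the sublink that is left when the components
through the arcs in `C` are erased: the Wirtinger relators of `D` and the meridians of the erased
components. -/
def sublinkRelators (D : Diagram) (C : Set (Fin D.n)) : Set (FreeGroup (Fin D.n)) :=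
  Set.range D.wirtinger ∪ FreeGroup.of '' C

/-- The group of the sublink that is left when the components of `D` through the arcs in `C` are
erased. -/
def LinkGroup (D : Diagram) (C : Set (Fin D.n)) : Type :=
  PresentedGroup (sublinkRelators D C)

instance (D : Diagram) (C : Set (Fin D.n)) : Group (LinkGroup D C) :=
  inferInstanceAs (Group (PresentedGroup (sublinkRelators D C)))

/-- The element of `LinkGroup D C` given by a word in the arcs of `D`. -/
def elem (D : Diagram) (C : Set (Fin D.n)) (w : FreeGroup (Fin D.n)) : LinkGroup D C :=
  PresentedGroup.mk (sublinkRelators D C) w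

/-- `θ` takes the meridian and the preferred longitude of the arc `k` of `D` to those of the arc
`k'` of `P`. -/
def Matches (D : Diagram) (C : Set (Fin D.n)) (P : Diagram) (θ : LinkGroup D C ≃* LinkGroup P ∅)
    (k : Fin D.n) (k' : Fin P.n) : Prop :=
  θ (elem D C (FreeGroup.of k)) = elem P ∅ (FreeGroup.of k') ∧
  θ (elem D C (D.longitude k)) = elem P ∅ (P.longitude k')

/-- When the components of `D` through the arcs in `C` are erased, the components `K`, `E` of the
arcs `k`, `e` of `D` have the same group system as the components of the arcs `k'`, `e'` in the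
link with the diagram `P`: the link groups are isomorphic, with the meridians and the preferred
longitudes of `k`, `e` corresponding to those of `k'`, `e'`. -/
def SameSystem (D : Diagram) (C : Set (Fin D.n)) (k e : Fin D.n) (P : Diagram)
    (k' e' : Fin P.n) : Prop :=
  ∃ θ : LinkGroup D C ≃* LinkGroup P ∅, Matches D C P θ k k' ∧ Matches D C P θ e e'

/-- Relators for the fundamental group of the manifold obtained from the link with the diagram `D`
by surgery of slope `a c / b c` on the component of each arc `c ∈ C` and of slope `p / q` on the
component `K` of the arc `k`. -/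
def surgeryRelators (D : Diagram) (C : Set (Fin D.n)) (a b : Fin D.n → ℤ) (k : Fin D.n)
    (p q : ℤ) : Set (FreeGroup (Fin D.n)) :=
  Set.range D.wirtinger ∪
  (fun c => FreeGroup.of c ^ a c * D.longitude c ^ b c) '' C ∪
  {FreeGroup.of k ^ p * D.longitude k ^ q}

/-- Relators for the fundamental group of the manifold obtained from the link `K ∪ E ∪ C_1 ∪ ...`
with the diagram `D` by surgery of slope `a c / b c` on the component of each arc `c ∈ C`, by
replacing a neighbourhood of `E` by the exterior of the knot `J`, with
`(longitude E) * (meridian E) ^ s = meridian J` and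
`meridian E = (meridian J) ^ f * longitude J`, and by surgery of slope `p` on `K`. -/
def twistedRelators (D J : Diagram) (C : Set (Fin D.n)) (a b : Fin D.n → ℤ) (k e : Fin D.n)
    (j : Fin J.n) (s f p : ℤ) : Set (FreeGroup (Fin D.n ⊕ Fin J.n)) :=
  Set.range (fun i => wordP D J (D.wirtinger i)) ∪
  Set.range (fun i => wordJ D J (J.wirtinger i)) ∪
  (fun c => wordP D J (FreeGroup.of c ^ a c * D.longitude c ^ b c)) '' C ∪
  {wordP D J (D.longitude e * FreeGroup.of e ^ s) * (wordJ D J (FreeGroup.of j))⁻¹,
   wordP D J (FreeGroup.of e) * (wordJ D J (J.slopeWord j f))⁻¹,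
   wordP D J (D.slopeWord k p)}

/-- The number of homomorphisms to `G` of the fundamental group of the surgery of slope `p / q` on
the knot with the diagram `P`, at the arc `k`. -/
noncomputable def homCount (G : Type) [Group G] (P : Diagram) (k : Fin P.n) (p q : ℤ) : ℕ :=
  Nat.card (PresentedGroup (surgeryRelators P ∅ 1 0 k p q) →* G)

/-- The slopes `a c / b c` on the components through the arcs in `C` are congruent to `1 / 0`
modulo `N`. -/
def TrivialMod (N : ℤ) {n : ℕ} (C : Set (Fin n)) (a b : Fin n → ℤ) : Prop :=
  ∀ c ∈ C, N ∣ a c - 1 ∧ N ∣ b c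

/-- The slopes `p / q` and `p' / q'` are not cosmetic for all knots congruent modulo `N` to the
knot `P`, if they are congruent modulo `N` to `p₀ / q₀` and `p₁ / q₁`: for every link `D` whose
component `k` is the knot `P` when the other components, through the arcs in `C`, are erased, the
surgeries with slopes congruent to `1 / 0` on the components in `C` and with the slopes `p / q` and
`p' / q'` on `k` have non-isomorphic groups. -/
def SeparatesKnotClass (N : ℤ) (P : Diagram) (k' : Fin P.n) (p₀ q₀ p₁ q₁ : ℤ) : Prop :=
  ∀ (D : Diagram) (C : Set (Fin D.n)) (a b : Fin D.n → ℤ) (k : Fin D.n),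
    SameSystem D C k k P k' k' → TrivialMod N C a b →
    ∀ p q p' q' : ℤ, N ∣ p - p₀ → N ∣ q - q₀ → N ∣ p' - p₁ → N ∣ q' - q₁ →
    IsEmpty (PresentedGroup (surgeryRelators D C a b k p q) ≃*
      PresentedGroup (surgeryRelators D C a b k p' q'))

/-- `ρ` is a homomorphism from the group of the link `P` to `G`. -/
def IsHom {G : Type} [Group G] (P : Diagram) (ρ : Fin P.n → G) : Prop :=
  ∀ i, FreeGroup.lift ρ (P.wirtinger i) = 1

/-- The value of the preferred longitude at the arc `i`. -/
noncomputable def lon {G : Type} [Group G] (P : Diagram) (ρ : Fin P.n → G) (i : Fin P.n) : G :=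
  FreeGroup.lift ρ (P.longitude i)

/-- The condition on the homomorphisms of the group of the link `P` to `G` for the `f`-twisted
satellites: if a homomorphism kills the curve of slope `-2` on `k`, and does not kill the longitude
of `e` unless it kills its meridian, then it kills the square of the meridian of `k`; and there is
a homomorphism that kills the curve of slope `2`, does not kill the square of the meridian, and
takes the meridian of `e` to the power of exponent `f` of the longitude of `e`. -/
def Separates (G : Type) [Group G] (P : Diagram) (k e : Fin P.n) (f : ℤ) : Prop :=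
  (∀ ρ : Fin P.n → G, IsHom P ρ → (lon P ρ e = 1 → ρ e = 1) →
    lon P ρ k = ρ k ^ 2 → ρ k ^ 2 = 1) ∧
  ∃ ρ : Fin P.n → G, IsHom P ρ ∧ ρ k ^ 2 * lon P ρ k = 1 ∧ ρ k ^ 2 ≠ 1 ∧ ρ e = lon P ρ e ^ f

/-- The slopes `2` and `-2` are not cosmetic for the `f`-twisted satellites of every knot `J` with
every pattern congruent modulo `N` to the link `P`: for every link `D` whose sublink formed by `k`
and `e` is the link `P` and whose other components, through the arcs in `C`, carry slopes congruent
to `1 / 0` modulo `N`. -/
def SeparatesClass (N : ℤ) (P : Diagram) (k' e' : Fin P.n) (f : ℤ) : Prop :=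
  ∀ (D J : Diagram), J.IsKnot → ∀ (C : Set (Fin D.n)) (a b : Fin D.n → ℤ) (k e : Fin D.n)
    (j : Fin J.n) (s p q : ℤ), SameSystem D C k e P k' e' → TrivialMod N C a b → N ∣ s →
    N ∣ p - 2 → N ∣ q + 2 →
    IsEmpty (PresentedGroup (twistedRelators D J C a b k e j s f p) ≃*
      PresentedGroup (twistedRelators D J C a b k e j s f q))

end Vale.Agent.P258
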